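import Crest.Agent.Helper75.MC.Defs

/-!
# S0171 — WP-F : moment bounds (Hilbert quantities against the squared distance)
(statements verbatim from `Crest.Agent.Helper75.MC.Spec`)
-/

set_option autoImplicit false

namespace Crest.Agent.Helper92.MC

open Finset Crest.Agent.Helper75.MC

variable {n : ℕ}

/-- Jensen for the square: `(∑ b a)² ≤ ∑ b a²` for a probability vector `b`. -/
theorem jensen_sq' {ι : Type*} (s : Finset ι) (b a : ι → ℝ) (hb : ∀ k ∈ s, 0 ≤ b k)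
    (hb1 : ∑ k ∈ s, b k = 1) : (∑ k ∈ s, b k * a k) ^ 2 ≤ ∑ k ∈ s, b k * a k ^ 2 := by
  set m := ∑ k ∈ s, b k * a k with hm
  have h : 0 ≤ ∑ k ∈ s, b k * (a k - m) ^ 2 :=
    Finset.sum_nonneg fun k hk => mul_nonneg (hb k hk) (sq_nonneg _)
  have h2 : ∑ k ∈ s, b k * (a k - m) ^ 2
      = ∑ k ∈ s, b k * a k ^ 2 - 2 * m * ∑ k ∈ s, b k * a k + m ^ 2 * ∑ k ∈ s, b k := by
    simp only [Finset.mul_sum, ← Finset.sum_sub_distrib, ← Finset.sum_add_distrib]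
    refine Finset.sum_congr rfl fun k _ => ?_
    ring
  rw [h2, hb1, ← hm] at h
  nlinarith

/-- Jensen for the fourth power. -/
theorem jensen_four {ι : Type*} (s : Finset ι) (b a : ι → ℝ) (hb : ∀ k ∈ s, 0 ≤ b k)
    (hb1 : ∑ k ∈ s, b k = 1) : (∑ k ∈ s, b k * a k) ^ 4 ≤ ∑ k ∈ s, b k * a k ^ 4 := by
  have h1 := jensen_sq' s b a hb hb1
  have h2 := jensen_sq' s b (fun k => a k ^ 2) hb hb1
  have h3 : (∑ k ∈ s, b k * a k) ^ 4 = ((∑ k ∈ s, b k * a k) ^ 2) ^ 2 := by ring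
  have h4 : ∑ k ∈ s, b k * a k ^ 4 = ∑ k ∈ s, b k * (a k ^ 2) ^ 2 := by
    refine Finset.sum_congr rfl fun k _ => ?_
    ring
  rw [h3, h4]
  refine le_trans ?_ h2
  exact pow_le_pow_left₀ (sq_nonneg _) h1 2

section F
variable {H : Type*} [NormedAddCommGroup H] [InnerProductSpace ℝ H]

/-- `‖c - u_i‖ ≤ ∑_k B_ik ‖c - Φ_k‖`. -/
theorem norm_sub_uu_le {B : Matrix (Fin n) (Fin n) ℝ}
    (hB0 : ∀ i j, 0 ≤ B i j) (hB1 : ∀ i, ∑ j, B i j = 1) (Φ : Fin n → H) (c : H) (i : Fin n) :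
    ‖c - uu B Φ i‖ ≤ ∑ k, B i k * ‖c - Φ k‖ := by
  have h : c - uu B Φ i = ∑ k, B i k • (c - Φ k) := by
    simp only [smul_sub, Finset.sum_sub_distrib, ← Finset.sum_smul, hB1, one_smul]
    rfl
  rw [h]
  refine (norm_sum_le _ _).trans (le_of_eq ?_)
  refine Finset.sum_congr rfl fun k _ => ?_
  rw [norm_smul, Real.norm_of_nonneg (hB0 i k)]

/-- `‖c - u_i‖⁴ ≤ ∑_k B_ik ‖c - Φ_k‖⁴`. -/
theorem norm_sub_uu_pow_four_le {B : Matrix (Fin n) (Fin n) ℝ}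
    (hB0 : ∀ i j, 0 ≤ B i j) (hB1 : ∀ i, ∑ j, B i j = 1) (Φ : Fin n → H) (c : H) (i : Fin n) :
    ‖c - uu B Φ i‖ ^ 4 ≤ ∑ k, B i k * ‖c - Φ k‖ ^ 4 :=
  (pow_le_pow_left₀ (norm_nonneg _) (norm_sub_uu_le hB0 hB1 Φ c i) 4).trans
    (jensen_four _ _ _ (fun k _ => hB0 i k) (hB1 i))

/-- General form: for a `w`-reversible nonnegative kernel `K`,
`∑_i w_i ∑_j K_ij ‖Φ_j - u_i‖⁴ ≤ pair w (K * B) (‖Φ_i - Φ_j‖⁴)`. -/
theorem fourth_le {w : Fin n → ℝ} (hw : ∀ i, 0 ≤ w i) {K : Matrix (Fin n) (Fin n) ℝ}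
    (hK0 : ∀ i j, 0 ≤ K i j) (hKr : ∀ i j, w i * K i j = w j * K j i)
    {B : Matrix (Fin n) (Fin n) ℝ}
    (hB0 : ∀ i j, 0 ≤ B i j) (hB1 : ∀ i, ∑ j, B i j = 1) (Φ : Fin n → H) :
    ∑ i, w i * ∑ j, K i j * ‖Φ j - uu B Φ i‖ ^ 4
      ≤ pair w (K * B) (fun i j => (‖Φ i - Φ j‖ ^ 2) ^ 2) := by
  have h1 : ∑ i, w i * ∑ j, K i j * ‖Φ j - uu B Φ i‖ ^ 4
      ≤ ∑ i, w i * ∑ j, K i j * ∑ k, B i k * ‖Φ j - Φ k‖ ^ 4 := by
    refine Finset.sum_le_sum fun i _ => mul_le_mul_of_nonneg_left ?_ (hw i)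
    refine Finset.sum_le_sum fun j _ => mul_le_mul_of_nonneg_left ?_ (hK0 i j)
    exact norm_sub_uu_pow_four_le hB0 hB1 Φ (Φ j) i
  refine h1.trans (le_of_eq ?_)
  unfold pair
  have h2 : ∑ i, w i * ∑ j, K i j * ∑ k, B i k * ‖Φ j - Φ k‖ ^ 4
      = ∑ j, ∑ k, ∑ i, w j * K j i * B i k * (‖Φ j - Φ k‖ ^ 2) ^ 2 := by
    simp only [Finset.mul_sum]
    rw [Finset.sum_comm]
    refine Finset.sum_congr rfl fun j _ => ?_
    rw [Finset.sum_comm]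
    refine Finset.sum_congr rfl fun k _ => ?_
    refine Finset.sum_congr rfl fun i _ => ?_
    have := hKr i j
    calc w i * (K i j * (B i k * ‖Φ j - Φ k‖ ^ 4))
        = (w i * K i j) * (B i k * ‖Φ j - Φ k‖ ^ 4) := by ring
      _ = (w j * K j i) * (B i k * ‖Φ j - Φ k‖ ^ 4) := by rw [this]
      _ = w j * K j i * B i k * (‖Φ j - Φ k‖ ^ 2) ^ 2 := by ring
  rw [h2]
  refine Finset.sum_congr rfl fun j _ => ?_
  refine Finset.sum_congr rfl fun k _ => ?_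
  rw [Matrix.mul_apply, Finset.mul_sum, Finset.sum_mul]
  refine Finset.sum_congr rfl fun i _ => ?_
  ring

theorem Q4_le {w : Fin n → ℝ} (hw : ∀ i, 0 ≤ w i) {B : Matrix (Fin n) (Fin n) ℝ}
    (hB0 : ∀ i j, 0 ≤ B i j) (hB1 : ∀ i, ∑ j, B i j = 1)
    (hBr : ∀ i j, w i * B i j = w j * B j i) (Φ : Fin n → H) :
    ∑ i, w i * Q4 B Φ i ≤ pair w (B * B) (fun i j => (‖Φ i - Φ j‖ ^ 2) ^ 2) :=
  fourth_le hw hB0 hBr hB0 hB1 Φ

theorem sig4_le {w : Fin n → ℝ} (hw : ∀ i, 0 ≤ w i) {B : Matrix (Fin n) (Fin n) ℝ}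
    (hB0 : ∀ i j, 0 ≤ B i j) (hB1 : ∀ i, ∑ j, B i j = 1)
    (hBr : ∀ i j, w i * B i j = w j * B j i) (Φ : Fin n → H) :
    ∑ i, w i * (sig2 B Φ i) ^ 2 ≤ pair w (B * B) (fun i j => (‖Φ i - Φ j‖ ^ 2) ^ 2) := by
  refine le_trans ?_ (Q4_le hw hB0 hB1 hBr Φ)
  refine Finset.sum_le_sum fun i _ => mul_le_mul_of_nonneg_left ?_ (hw i)
  unfold sig2 Q4
  have h := jensen_sq' Finset.univ (fun j => B i j) (fun j => ‖Φ j - uu B Φ i‖ ^ 2)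
    (fun k _ => hB0 i k) (hB1 i)
  refine h.trans (le_of_eq ?_)
  refine Finset.sum_congr rfl fun j _ => ?_
  ring

theorem dd2_le {w : Fin n → ℝ} {A : Matrix (Fin n) (Fin n) ℝ} (hc : Chain n w A)
    {B : Matrix (Fin n) (Fin n) ℝ}
    (hB0 : ∀ i j, 0 ≤ B i j) (hB1 : ∀ i, ∑ j, B i j = 1) (Φ : Fin n → H) :
    ∑ i, w i * (dd A B Φ i) ^ 2 ≤ pair w (A * B) (fun i j => (‖Φ i - Φ j‖ ^ 2) ^ 2) := by
  refine le_trans ?_ (fourth_le hc.w_nonneg hc.A_nonneg hc.rev hB0 hB1 Φ)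
  refine Finset.sum_le_sum fun i _ => mul_le_mul_of_nonneg_left ?_ (hc.w_nonneg i)
  unfold dd
  have h := jensen_sq' Finset.univ (fun j => A i j) (fun j => ‖Φ j - uu B Φ i‖ ^ 2)
    (fun k _ => hc.A_nonneg i k) (hc.A_row i)
  refine h.trans (le_of_eq ?_)
  refine Finset.sum_congr rfl fun j _ => ?_
  ring

theorem W4_le {w : Fin n → ℝ} (hw : ∀ i, 0 ≤ w i) {B : Matrix (Fin n) (Fin n) ℝ}
    (hB0 : ∀ i j, 0 ≤ B i j) (hB1 : ∀ i, ∑ j, B i j = 1) (Φ : Fin n → H) :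
    ∑ i, w i * ‖Φ i - uu B Φ i‖ ^ 4 ≤ pair w B (fun i j => (‖Φ i - Φ j‖ ^ 2) ^ 2) := by
  unfold pair
  refine Finset.sum_le_sum fun i _ => ?_
  have h := norm_sub_uu_pow_four_le hB0 hB1 Φ (Φ i) i
  have h2 : w i * ‖Φ i - uu B Φ i‖ ^ 4 ≤ w i * ∑ k, B i k * ‖Φ i - Φ k‖ ^ 4 :=
    mul_le_mul_of_nonneg_left h (hw i)
  refine h2.trans (le_of_eq ?_)
  rw [Finset.mul_sum]
  refine Finset.sum_congr rfl fun k _ => ?_
  ring

end F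

end Crest.Agent.Helper92.MC
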